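import Vale.Agent.P321.Bdl.B8

/-!
Explicit rate: worst-case trace reconstruction needs at least `n ^ (c log log n)` traces, for every
fixed deletion probability `q ∈ (0, 1)`, with an absolute constant `c > 0`.
-/

namespace Vale.Agent.Results.P321.LogLogRate

open Vale.Agent.P321
open scoped unitInterval

theorem result : ∃ c : ℝ, 0 < c ∧ ∀ q : I, 0 < (q : ℝ) → (q : ℝ) < 1 →
    ∃ n₀ : ℕ, ∀ n : ℕ, n₀ ≤ n →
      (⌈(n : ℝ) ^ (c * Real.log (Real.log n))⌉₊ : ℕ∞) ≤ T q n ∧ T q n ≠ ⊤ :=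
  ⟨1 / 65536, by norm_num, fun q h0 h1 => rate_T (MA.smallDS (A := 24) le_rfl) q h0 h1⟩

end Vale.Agent.Results.P321.LogLogRate
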