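import Vale.Agent.P321.Bdl.B8

/-!
Worst-case trace reconstruction needs superpolynomially many traces, for every fixed deletion
probability `q ∈ (0, 1)`.
-/

namespace Vale.Agent.Results.P321.Superpolynomial

open Vale.Agent.P321
open scoped unitInterval

theorem result : ∀ q : I, 0 < (q : ℝ) → (q : ℝ) < 1 →
    (∀ A : ℕ, ∃ n₀ : ℕ, ∀ n : ℕ, n₀ ≤ n → (n : ℕ∞) ^ A ≤ T q n) ∧
    ¬ ∃ C A : ℕ, ∀ n : ℕ, 1 ≤ n → T q n ≤ (C : ℕ∞) * (n : ℕ∞) ^ A := by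
  intro q h0 h1
  have key : ∀ A : ℕ, ∃ n₀ : ℕ, ∀ n : ℕ, n₀ ≤ n → (n : ℕ∞) ^ A ≤ T q n := by
    intro A
    obtain ⟨n₀, h⟩ := superpoly q h0 h1 A
    refine ⟨n₀, fun n hn => ?_⟩
    unfold T
    refine le_iInf₂ fun m hm => ?_
    have h2 := h n hn m hm
    have h3 : n ^ A ≤ m := by exact_mod_cast h2
    exact_mod_cast h3
  refine ⟨key, ?_⟩
  rintro ⟨C, A, h⟩
  obtain ⟨n₀, h2⟩ := key (A + 1)
  set n : ℕ := n₀ + C + 1 with hn
  have h3 : ((n ^ (A + 1) : ℕ) : ℕ∞) ≤ ((C * n ^ A : ℕ) : ℕ∞) := by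
    have := (h2 n (by omega)).trans (h n (by omega))
    push_cast
    exact this
  have h4 : n ^ (A + 1) ≤ C * n ^ A := by exact_mod_cast h3
  have h5 : 0 < n ^ A := by positivity
  rw [pow_succ, mul_comm] at h4
  have h6 : n ≤ C := Nat.le_of_mul_le_mul_right h4 h5
  omega

end Vale.Agent.Results.P321.Superpolynomial
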